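import Mathlib
import Crest.Agent.R256.RingA

/-! `A_1` is a polynomial ring in four variables; the element `p` is a stable coordinate with affine
fibres which is not a coordinate. -/

set_option autoImplicit false

namespace Crest.Agent.R268

open MvPolynomial Crest.Agent.R256

section
variable {R : Type*} [CommRing R]

def cF (u F J : R) : R := F - J ^ 2 * u ^ 2
def cS (p s u F J : R) : R := s + u ^ 2 * (cF u F J - xx p s u F * J)
def cP (p s u F J : R) : R := p + u ^ 2 * (xx p s u F ^ 2 + u ^ 2 * cF u F J - 2 * cS p s u F J)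
def dx (P S G : R) : R := S ^ 2 + P * G
def dU (P S G J : R) : R := dx P S G ^ 2 * G - 2 * dx P S G * S * J - P * J ^ 2 - J
def dX (P S G J : R) : R := dx P S G - J * dU P S G J ^ 2
def dF (P S G J : R) : R := G + J ^ 2 * dU P S G J ^ 2
def dS (P S G J : R) : R := S - dU P S G J ^ 2 * (G - dX P S G J * J)
def dP (P S G J : R) : R := P - dU P S G J ^ 2 * (dX P S G J ^ 2 + dU P S G J ^ 2 * G - 2 * S)

variable (P S G J p s u F : R)

theorem d_U : dX P S G J ^ 2 * dF P S G J - 2 * dS P S G J * dX P S G J * J - dP P S G J * J ^ 2 =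
    dU P S G J + J := by
  have h : dU P S G J = dx P S G ^ 2 * G - 2 * dx P S G * S * J - P * J ^ 2 - J := rfl
  unfold dP dS dF dX
  generalize dU P S G J = u at *
  generalize dx P S G = x at *
  linear_combination -h

theorem d_xx : xx (dP P S G J) (dS P S G J) (dU P S G J) (dF P S G J) = dX P S G J := by
  have h := d_U P S G J
  have h1 : dX P S G J = S ^ 2 + P * G - J * dU P S G J ^ 2 := rfl
  unfold xx
  unfold dP dS dF at *
  generalize dX P S G J = x at *
  generalize dU P S G J = u at *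
  linear_combination -h1 - u ^ 2 * h

theorem d_rel : HH (dP P S G J ^ 1) (dS P S G J) (dU P S G J) (dF P S G J) J = 0 := by
  rw [pow_one, HH, d_xx]
  linear_combination d_U P S G J

theorem cF_d : cF (dU P S G J) (dF P S G J) J = G := by unfold cF dF; ring
theorem cS_d : cS (dP P S G J) (dS P S G J) (dU P S G J) (dF P S G J) J = S := by
  rw [cS, d_xx, cF_d, dS]; ring
theorem cP_d : cP (dP P S G J) (dS P S G J) (dU P S G J) (dF P S G J) J = P := by
  rw [cP, d_xx, cF_d, cS_d, dP]; ring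

variable {p s u F J} (h : HH p s u F J = 0)
include h

theorem dx_c : dx (cP p s u F J) (cS p s u F J) (cF u F J) = xx p s u F + J * u ^ 2 := by
  have h1 : xx p s u F = s ^ 2 + u ^ 3 + p * F := rfl
  unfold HH at h
  unfold dx cP cS cF
  generalize xx p s u F = x at *
  linear_combination -h1 + u ^ 2 * h

theorem dU_c : dU (cP p s u F J) (cS p s u F J) (cF u F J) J = u := by
  rw [dU, dx_c h]
  unfold HH at h
  unfold cP cS cF
  generalize xx p s u F = x at *
  linear_combination h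

theorem dX_c : dX (cP p s u F J) (cS p s u F J) (cF u F J) J = xx p s u F := by
  rw [dX, dx_c h, dU_c h]; ring
theorem dF_c : dF (cP p s u F J) (cS p s u F J) (cF u F J) J = F := by
  rw [dF, dU_c h, cF]; ring
theorem dS_c : dS (cP p s u F J) (cS p s u F J) (cF u F J) J = s := by
  rw [dS, dU_c h, dX_c h, cS]; ring
theorem dP_c : dP (cP p s u F J) (cS p s u F J) (cF u F J) J = p := by
  rw [dP, dU_c h, dX_c h, cP]; ring

end

section
variable {R : Type*} [CommRing R] {R' : Type*} [CommRing R'] {Φ : Type*} [FunLike Φ R R']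
  [RingHomClass Φ R R'] (φ : Φ) (P S G J p s u F : R)

theorem map_cF : φ (cF u F J) = cF (φ u) (φ F) (φ J) := by simp [cF]
theorem map_cS : φ (cS p s u F J) = cS (φ p) (φ s) (φ u) (φ F) (φ J) := by
  simp [cS, map_cF, map_xx]
theorem map_cP : φ (cP p s u F J) = cP (φ p) (φ s) (φ u) (φ F) (φ J) := by
  simp [cP, map_cF, map_cS, map_xx, map_ofNat]
theorem map_dx : φ (dx P S G) = dx (φ P) (φ S) (φ G) := by simp [dx]
theorem map_dU : φ (dU P S G J) = dU (φ P) (φ S) (φ G) (φ J) := by simp [dU, map_dx, map_ofNat]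
theorem map_dX : φ (dX P S G J) = dX (φ P) (φ S) (φ G) (φ J) := by simp [dX, map_dx, map_dU]
theorem map_dF : φ (dF P S G J) = dF (φ P) (φ S) (φ G) (φ J) := by simp [dF, map_dU]
theorem map_dS : φ (dS P S G J) = dS (φ P) (φ S) (φ G) (φ J) := by simp [dS, map_dU, map_dX]
theorem map_dP : φ (dP P S G J) = dP (φ P) (φ S) (φ G) (φ J) := by
  simp [dP, map_dU, map_dX, map_ofNat]

end

/-- `A_1 → ℂ[P,S,G,J]`. -/
noncomputable def onePhi : AA 1 →ₐ[ℂ] MvPolynomial (Fin 4) ℂ :=
  liftA _ _ _ _ _ (d_rel (X 0) (X 1) (X 2) (X 3))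

/-- `ℂ[P,S,G,J] → A_1`. -/
noncomputable def onePsi : MvPolynomial (Fin 4) ℂ →ₐ[ℂ] AA 1 :=
  aeval ![cP (ap 1) (as 1) (au 1) (aF' 1) (aJ' 1), cS (ap 1) (as 1) (au 1) (aF' 1) (aJ' 1),
    cF (au 1) (aF' 1) (aJ' 1), aJ' 1]

theorem a1_rel : HH (ap 1) (as 1) (au 1) (aF' 1) (aJ' 1) = 0 := by simpa using a_rel 1

/-- `A_1` is a polynomial ring in four variables. -/
noncomputable def oneEquiv : AA 1 ≃ₐ[ℂ] MvPolynomial (Fin 4) ℂ :=
  AlgEquiv.ofAlgHom onePhi onePsi
    (by
      apply MvPolynomial.algHom_ext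
      intro i
      fin_cases i
      all_goals
        simp only [onePhi, onePsi, AlgHom.comp_apply, aeval_X, AlgHom.id_apply, Fin.zero_eta,
          Fin.mk_one, Fin.reduceFinMk, Matrix.cons_val, map_cP, map_cS, map_cF, liftA_p, liftA_s,
          liftA_u, liftA_F, liftA_J, cF_d, cS_d, cP_d])
    (by
      apply homA_ext
      all_goals
        simp only [onePhi, onePsi, AlgHom.comp_apply, aeval_X, AlgHom.id_apply,
          Matrix.cons_val, map_dP, map_dS, map_dU, map_dF, liftA_p, liftA_s,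
          liftA_u, liftA_F, liftA_J, dP_c a1_rel, dS_c a1_rel, dU_c a1_rel, dF_c a1_rel])

theorem quot_iso {A T T' : Type*} [CommRing A] [Algebra ℂ A] [CommRing T] [Algebra ℂ T]
    [CommRing T'] [Algebra ℂ T'] (e : A ≃ₐ[ℂ] T) (a : A) (φ : A →ₐ[ℂ] T') (ψ : T' →ₐ[ℂ] A)
    (ha : φ a = 0) (h1 : φ.comp ψ = AlgHom.id ℂ T')
    (h2 : (Ideal.Quotient.mkₐ ℂ (Ideal.span {a})).comp (ψ.comp φ) =
      Ideal.Quotient.mkₐ ℂ (Ideal.span {a})) :
    Nonempty ((T ⧸ Ideal.span {e a}) ≃ₐ[ℂ] T') := by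
  have hs : Function.Surjective φ := fun t => ⟨ψ t, DFunLike.congr_fun h1 t⟩
  have hk : RingHom.ker φ = Ideal.span {a} := by
    apply le_antisymm
    · intro g hg
      have := DFunLike.congr_fun h2 g
      simp only [AlgHom.comp_apply, RingHom.mem_ker.1 hg, map_zero] at this
      exact Ideal.Quotient.eq_zero_iff_mem.1 this.symm
    · rw [Ideal.span_le, Set.singleton_subset_iff]
      exact ha
  have e1 : (A ⧸ Ideal.span {a}) ≃ₐ[ℂ] (T ⧸ Ideal.span {e a}) :=
    Ideal.quotientEquivAlg _ _ e (by rw [Ideal.map_span, Set.image_singleton]; rfl)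
  exact ⟨e1.symm.trans ((Ideal.quotientEquivAlgOfEq ℂ hk.symm).trans
    (Ideal.quotientKerAlgEquivOfSurjective hs))⟩

section
variable {R : Type*} [CommRing R]

def eU (c' x y z : R) : R := c' * (x * y - z * (z + 1))
def eS (c' x y z : R) : R := y - x * (x - eU c' x y z ^ 3)
def eF (c' x y z : R) : R := c' * (x - eS c' x y z ^ 2 - eU c' x y z ^ 3)
def eJ (c' x y z : R) : R := c' * (z - eS c' x y z * x)

variable {c c' : R} (hc : c * c' = 1)
include hc

theorem e_xx (x y z : R) : xx c (eS c' x y z) (eU c' x y z) (eF c' x y z) = x := by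
  unfold xx eF
  linear_combination (x - eS c' x y z ^ 2 - eU c' x y z ^ 3) * hc

theorem e_z (x y z : R) : eS c' x y z * x + c * eJ c' x y z = z := by
  unfold eJ
  linear_combination (z - eS c' x y z * x) * hc

theorem e_rel (x y z : R) :
    HH (c ^ 1) (eS c' x y z) (eU c' x y z) (eF c' x y z) (eJ c' x y z) = 0 := by
  rw [pow_one, HH, e_xx hc]
  have h1 : eU c' x y z = c' * (x * y - z * (z + 1)) := rfl
  have h2 : eS c' x y z = y - x * (x - eU c' x y z ^ 3) := rfl
  unfold eF eJ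
  generalize eS c' x y z = s at *
  generalize eU c' x y z = u at *
  linear_combination -h1 + c' * x * h2 - c' * (z - s * x) ^ 2 * hc

variable {s u F J : R} (h : HH c s u F J = 0)
include h

theorem eU_inv : eU c' (xx c s u F) (s + xx c s u F * (xx c s u F - u ^ 3))
    (s * xx c s u F + c * J) = u := by
  have h1 : xx c s u F = s ^ 2 + u ^ 3 + c * F := rfl
  unfold HH at h
  unfold eU
  generalize xx c s u F = x at *
  linear_combination c' * x ^ 2 * h1 + c * c' * h + u * hc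

theorem eS_inv : eS c' (xx c s u F) (s + xx c s u F * (xx c s u F - u ^ 3))
    (s * xx c s u F + c * J) = s := by
  rw [eS, eU_inv hc h]; ring

theorem eF_inv : eF c' (xx c s u F) (s + xx c s u F * (xx c s u F - u ^ 3))
    (s * xx c s u F + c * J) = F := by
  rw [eF, eU_inv hc h, eS_inv hc h, xx]; linear_combination F * hc

theorem eJ_inv : eJ c' (xx c s u F) (s + xx c s u F * (xx c s u F - u ^ 3))
    (s * xx c s u F + c * J) = J := by
  rw [eJ, eS_inv hc h]; linear_combination J * hc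

end

section
variable {R : Type*} [CommRing R] {R' : Type*} [CommRing R'] {Φ : Type*} [FunLike Φ R R']
  [RingHomClass Φ R R'] (φ : Φ) (c' x y z : R)

theorem map_eU : φ (eU c' x y z) = eU (φ c') (φ x) (φ y) (φ z) := by simp [eU]
theorem map_eS : φ (eS c' x y z) = eS (φ c') (φ x) (φ y) (φ z) := by simp [eS, map_eU]
theorem map_eF : φ (eF c' x y z) = eF (φ c') (φ x) (φ y) (φ z) := by simp [eF, map_eU, map_eS]
theorem map_eJ : φ (eJ c' x y z) = eJ (φ c') (φ x) (φ y) (φ z) := by simp [eJ, map_eS]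

end

theorem fibre_iso {T : Type*} [CommRing T] [Algebra ℂ T] (e : AA 1 ≃ₐ[ℂ] T) (c : ℂ) :
    Nonempty ((T ⧸ Ideal.span {e (ap 1 - algebraMap ℂ _ c)}) ≃ₐ[ℂ] MvPolynomial (Fin 3) ℂ) := by
  set m := Ideal.Quotient.mkₐ ℂ (Ideal.span {ap 1 - algebraMap ℂ (AA 1) c}) with hm
  have hp : m (ap 1) = algebraMap ℂ _ c := by
    rw [← sub_eq_zero, ← m.commutes, ← map_sub]
    exact Ideal.Quotient.eq_zero_iff_mem.2 (Ideal.mem_span_singleton_self _)
  have hrel : HH (algebraMap ℂ _ c) (m (as 1)) (m (au 1)) (m (aF' 1)) (m (aJ' 1)) = 0 := by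
    have := congrArg m a1_rel
    rwa [map_HH, map_zero, hp] at this
  by_cases hc : c = 0
  · subst hc
    let φ : AA 1 →ₐ[ℂ] MvPolynomial (Fin 3) ℂ :=
      liftA 0 (X 0) (X 1) (bF (X 0) (X 1) (X 2) (X 1)) (bJ (X 0) (X 1) (X 2) (X 1)) (by
        rw [HH_eq, bL_b]; ring)
    let ψ : MvPolynomial (Fin 3) ℂ →ₐ[ℂ] AA 1 :=
      aeval ![as 1, au 1, bG (as 1) (au 1) (aF' 1) (aJ' 1)]
    have hL : m (au 1) = bL (m (as 1)) (m (au 1)) (m (aF' 1)) (m (aJ' 1)) := by
      have h0 : algebraMap ℂ (AA 1 ⧸ Ideal.span {ap 1 - algebraMap ℂ (AA 1) 0}) 0 = 0 := map_zero _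
      rw [HH_eq, h0] at hrel
      linear_combination -hrel
    refine quot_iso e _ φ ψ (by simp [φ]) ?_ ?_
    · apply MvPolynomial.algHom_ext
      intro i
      fin_cases i <;> simp [φ, ψ, map_bG, bG_b]
    · rw [← hm]
      apply homA_ext
      all_goals
        simp only [φ, ψ, AlgHom.comp_apply, aeval_X, Matrix.cons_val, map_bF, map_bJ, map_bG,
          liftA_p, liftA_s, liftA_u, liftA_F, liftA_J, map_zero, hp]
      · nth_rewrite 3 [hL]; rw [bF_b]
      · nth_rewrite 3 [hL]; rw [bJ_b]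
  · have hc1 : (C c : MvPolynomial (Fin 3) ℂ) * C c⁻¹ = 1 := by
      rw [← map_mul, mul_inv_cancel₀ hc, map_one]
    have hc2 : algebraMap ℂ (AA 1 ⧸ Ideal.span {ap 1 - algebraMap ℂ (AA 1) c}) c *
        algebraMap ℂ _ c⁻¹ = 1 := by
      rw [← map_mul, mul_inv_cancel₀ hc, map_one]
    let φ : AA 1 →ₐ[ℂ] MvPolynomial (Fin 3) ℂ :=
      liftA (C c) _ _ _ _ (e_rel hc1 (X 0) (X 1) (X 2))
    let ψ : MvPolynomial (Fin 3) ℂ →ₐ[ℂ] AA 1 :=
      aeval ![xx (ap 1) (as 1) (au 1) (aF' 1),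
        as 1 + xx (ap 1) (as 1) (au 1) (aF' 1) * (xx (ap 1) (as 1) (au 1) (aF' 1) - au 1 ^ 3),
        as 1 * xx (ap 1) (as 1) (au 1) (aF' 1) + ap 1 * aJ' 1]
    refine quot_iso e _ φ ψ (by simp [φ]) ?_ ?_
    · apply MvPolynomial.algHom_ext
      intro i
      fin_cases i
      all_goals
        simp only [φ, ψ, AlgHom.comp_apply, aeval_X, AlgHom.id_apply, Fin.zero_eta,
          Fin.mk_one, Fin.reduceFinMk, Matrix.cons_val, map_xx, map_add, map_mul, map_sub, map_pow,
          liftA_p, liftA_s, liftA_u, liftA_F, liftA_J, e_xx hc1, e_z hc1]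
      rw [eS]; ring
    · rw [← hm]
      apply homA_ext
      all_goals
        simp only [φ, ψ, AlgHom.comp_apply, aeval_X, Matrix.cons_val, map_eU, map_eS, map_eF,
          map_eJ, map_xx, map_add, map_mul, map_sub, map_pow, algHom_C, AlgHom.commutes,
          liftA_p, liftA_s, liftA_u, liftA_F, liftA_J, hp, eU_inv hc2 hrel, eS_inv hc2 hrel,
          eF_inv hc2 hrel, eJ_inv hc2 hrel]

theorem p_not_coordinate (e : AA 1 ≃ₐ[ℂ] MvPolynomial (Fin 4) ℂ) (he : e (ap 1) = X 0) : False := by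
  let κ : MvPolynomial (Fin 4) ℂ →ₐ[ℂ] MvPolynomial (Fin 4) ℂ := aeval ![X 0 ^ 2, X 1, X 2, X 3]
  let ι : AA 1 →ₐ[ℂ] AA 2 := liftA (ap 2 ^ 2) (as 2) (au 2) (aF' 2) (aJ' 2) (by
    rw [pow_one]; exact a_rel 2)
  let σ : AA 2 →ₐ[ℂ] MvPolynomial (Fin 4) ℂ :=
    liftA (X 0) (κ (e (as 1))) (κ (e (au 1))) (κ (e (aF' 1))) (κ (e (aJ' 1))) (by
      have := congrArg (fun a => κ (e a)) a1_rel
      simp only [map_HH, map_zero, he] at this
      simpa [κ] using this)
  let ρ : MvPolynomial (Fin 4) ℂ →ₐ[ℂ] AA 2 :=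
    aeval ![ap 2, ι (e.symm (X 1)), ι (e.symm (X 2)), ι (e.symm (X 3))]
  have h1 : σ.comp ι = κ.comp (e : AA 1 →ₐ[ℂ] _) := by
    apply homA_ext <;> simp [σ, ι, he, κ]
  have h1' : ∀ a, σ (ι a) = κ (e a) := fun a => DFunLike.congr_fun h1 a
  have h2 : ρ.comp κ = ι.comp (e.symm : _ →ₐ[ℂ] AA 1) := by
    apply MvPolynomial.algHom_ext
    intro i
    fin_cases i
    · have : e.symm (X 0) = ap 1 := by rw [← he, AlgEquiv.symm_apply_apply]
      simp [ρ, κ, this, ι]
    all_goals simp [ρ, κ]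
  have h2' : ∀ a, ρ (κ (e a)) = ι a := fun a => by
    simpa using DFunLike.congr_fun h2 (e a)
  refine A2_not_poly (AlgEquiv.ofAlgHom σ ρ ?_ ?_)
  · apply MvPolynomial.algHom_ext
    intro i
    fin_cases i
    · simp [ρ, σ]
    all_goals simp [ρ, h1', κ]
  · apply homA_ext
    · simp [ρ, σ]
    all_goals
      simp only [σ, AlgHom.comp_apply, liftA_s, liftA_u, liftA_F, liftA_J, h2', AlgHom.id_apply, ι]

end Crest.Agent.R268
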