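import Mathlib
import Crest.Agent.R268.Fibres

/-! A polynomial in four variables with a critical point whose general fibre is affine space. -/

set_option autoImplicit false

namespace Crest.Agent.R268

open MvPolynomial Crest.Agent.R256

section
variable {R : Type*} [CommRing R]

def fx (h u v : R) : R := u ^ 3 + h * v
def fy (h u w : R) : R := h * w - u ^ 2
def fsy (u v w : R) : R := v + u * w
def fsx (h u v w : R) : R := u * v + 2 * u ^ 2 * w - h * w ^ 2
def fs (h u v w : R) : R := fx h u v * fsy u v w - fy h u w * fsx h u v w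
def al (s : R) : R := 2 * s ^ 2
def be (s y : R) : R := 3 * s ^ 3 - 3 * s * y
def fH (h u v w : R) : R := h + al (fs h u v w) * fx h u v + be (fs h u v w) (fy h u w) * fy h u w
def fX (h u v w : R) : R := fx h u v + fs h u v w ^ 3
def fY (h u v w : R) : R := fy h u w - fs h u v w ^ 2
def fT (h u v w : R) : R :=
  u + al (fs h u v w) * fsx h u v w + be (fs h u v w) (fy h u w) * fsy u v w

def gs (t' X Y : R) : R := t' * (X ^ 2 + Y ^ 3)
def gx (t' X Y : R) : R := X - gs t' X Y ^ 3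
def gy (t' X Y : R) : R := Y + gs t' X Y ^ 2
def gh (t t' X Y : R) : R :=
  t - al (gs t' X Y) * gx t' X Y - be (gs t' X Y) (gy t' X Y) * gy t' X Y
def gu (t t' X Y T : R) : R :=
  t' * (gh t t' X Y * T + al (gs t' X Y) * gy t' X Y ^ 2 - be (gs t' X Y) (gy t' X Y) * gx t' X Y)
def gsy (t' X Y T : R) : R := t' * (gy t' X Y * T + gx t' X Y + al (gs t' X Y) * gs t' X Y)
def gsx (t' X Y T : R) : R :=
  t' * (gx t' X Y * T - gy t' X Y ^ 2 - be (gs t' X Y) (gy t' X Y) * gs t' X Y)
def gw (t t' X Y T : R) : R :=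
  t' * ((gy t' X Y + gu t t' X Y T ^ 2) +
    al (gs t' X Y) * (gy t' X Y * gsy t' X Y T + gu t t' X Y T * gsx t' X Y T) +
    be (gs t' X Y) (gy t' X Y) * (gu t t' X Y T * gsy t' X Y T - gsx t' X Y T))
def gv (t t' X Y T : R) : R := gsy t' X Y T - gu t t' X Y T * gw t t' X Y T

section fwd
variable (h u v w : R)

theorem f_hs : h * fs h u v w = fx h u v ^ 2 + fy h u w ^ 3 := by unfold fs fx fy fsx fsy; ring

theorem f_s : fH h u v w * fs h u v w = fX h u v w ^ 2 + fY h u v w ^ 3 := by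
  have := f_hs h u v w
  unfold fH fX fY al be
  linear_combination this

theorem f_u : fH h u v w * u = h * fT h u v w + al (fs h u v w) * fy h u w ^ 2 -
    be (fs h u v w) (fy h u w) * fx h u v := by
  unfold fH fT
  generalize al (fs h u v w) = α
  generalize be (fs h u v w) (fy h u w) = β
  unfold fx fy fsx fsy; ring

theorem f_sy : fH h u v w * fsy u v w = fy h u w * fT h u v w + fx h u v +
    al (fs h u v w) * fs h u v w := by
  unfold fH fT
  generalize al (fs h u v w) = α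
  generalize be (fs h u v w) (fy h u w) = β
  unfold fs fx fy fsx fsy; ring

theorem f_sx : fH h u v w * fsx h u v w = fx h u v * fT h u v w - fy h u w ^ 2 -
    be (fs h u v w) (fy h u w) * fs h u v w := by
  unfold fH fT
  generalize al (fs h u v w) = α
  generalize be (fs h u v w) (fy h u w) = β
  unfold fs fx fy fsx fsy; ring

theorem f_w : fH h u v w * w = (fy h u w + u ^ 2) +
    al (fs h u v w) * (fy h u w * fsy u v w + u * fsx h u v w) +
    be (fs h u v w) (fy h u w) * (u * fsy u v w - fsx h u v w) := by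
  unfold fH
  generalize al (fs h u v w) = α
  generalize be (fs h u v w) (fy h u w) = β
  unfold fx fy fsx fsy; ring

variable {h u v w} {t t' : R} (ht : t * t' = 1) (hH : fH h u v w = t)
include ht hH

theorem gf : gh t t' (fX h u v w) (fY h u v w) = h ∧
    gu t t' (fX h u v w) (fY h u v w) (fT h u v w) = u ∧
    gv t t' (fX h u v w) (fY h u v w) (fT h u v w) = v ∧
    gw t t' (fX h u v w) (fY h u v w) (fT h u v w) = w := by
  have e1 : gs t' (fX h u v w) (fY h u v w) = fs h u v w := by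
    rw [gs, ← f_s, hH]; linear_combination (fs h u v w) * ht
  have e2 : gx t' (fX h u v w) (fY h u v w) = fx h u v := by rw [gx, e1, fX]; ring
  have e3 : gy t' (fX h u v w) (fY h u v w) = fy h u w := by rw [gy, e1, fY]; ring
  have e4 : gh t t' (fX h u v w) (fY h u v w) = h := by rw [gh, e1, e2, e3, ← hH, fH]; ring
  have e5 : gu t t' (fX h u v w) (fY h u v w) (fT h u v w) = u := by
    rw [gu, e1, e2, e3, e4, ← f_u, hH]; linear_combination u * ht
  have e6 : gsy t' (fX h u v w) (fY h u v w) (fT h u v w) = fsy u v w := by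
    rw [gsy, e1, e2, e3, ← f_sy, hH]; linear_combination (fsy u v w) * ht
  have e7 : gsx t' (fX h u v w) (fY h u v w) (fT h u v w) = fsx h u v w := by
    rw [gsx, e1, e2, e3, ← f_sx, hH]; linear_combination (fsx h u v w) * ht
  have e8 : gw t t' (fX h u v w) (fY h u v w) (fT h u v w) = w := by
    rw [gw, e1, e3, e5, e6, e7, ← f_w, hH]; linear_combination w * ht
  exact ⟨e4, e5, by rw [gv, e5, e6, e8, fsy]; ring, e8⟩

end fwd

theorem fg {t t' : R} (ht : t * t' = 1) (X Y T : R) :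
    fH (gh t t' X Y) (gu t t' X Y T) (gv t t' X Y T) (gw t t' X Y T) = t ∧
    fX (gh t t' X Y) (gu t t' X Y T) (gv t t' X Y T) (gw t t' X Y T) = X ∧
    fY (gh t t' X Y) (gu t t' X Y T) (gv t t' X Y T) (gw t t' X Y T) = Y ∧
    fT (gh t t' X Y) (gu t t' X Y T) (gv t t' X Y T) (gw t t' X Y T) = T := by
  have ds : gs t' X Y = t' * (X ^ 2 + Y ^ 3) := rfl
  have dx : gx t' X Y = X - gs t' X Y ^ 3 := rfl
  have dy : gy t' X Y = Y + gs t' X Y ^ 2 := rfl
  have dh : gh t t' X Y = t - al (gs t' X Y) * gx t' X Y - be (gs t' X Y) (gy t' X Y) * gy t' X Y :=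
    rfl
  have du : gu t t' X Y T = t' * (gh t t' X Y * T + al (gs t' X Y) * gy t' X Y ^ 2 -
    be (gs t' X Y) (gy t' X Y) * gx t' X Y) := rfl
  have dsy : gsy t' X Y T = t' * (gy t' X Y * T + gx t' X Y + al (gs t' X Y) * gs t' X Y) := rfl
  have dsx : gsx t' X Y T =
    t' * (gx t' X Y * T - gy t' X Y ^ 2 - be (gs t' X Y) (gy t' X Y) * gs t' X Y) := rfl
  have dw : gw t t' X Y T = t' * ((gy t' X Y + gu t t' X Y T ^ 2) +
    al (gs t' X Y) * (gy t' X Y * gsy t' X Y T + gu t t' X Y T * gsx t' X Y T) +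
    be (gs t' X Y) (gy t' X Y) * (gu t t' X Y T * gsy t' X Y T - gsx t' X Y T)) := rfl
  have dv : gv t t' X Y T = gsy t' X Y T - gu t t' X Y T * gw t t' X Y T := rfl
  generalize gv t t' X Y T = v at *
  generalize gw t t' X Y T = w at *
  generalize gsx t' X Y T = σx at *
  generalize gsy t' X Y T = σy at *
  generalize gu t t' X Y T = u at *
  generalize gh t t' X Y = h at *
  generalize gy t' X Y = y at *
  generalize gx t' X Y = x at *
  generalize gs t' X Y = s at *
  have hX : X = x + s ^ 3 := by rw [dx]; ring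
  have hY : Y = y - s ^ 2 := by rw [dy]; ring
  have hs : h * s = x ^ 2 + y ^ 3 := by
    have : t * s = X ^ 2 + Y ^ 3 := by rw [ds]; linear_combination (X ^ 2 + Y ^ 3) * ht
    rw [dh, al, be]
    rw [hX, hY] at this
    linear_combination this
  generalize hα : al s = α at *
  generalize hβ : be s y = β at *
  have ht' : t' * (h + α * x + β * y) = 1 := by rw [dh]; linear_combination ht
  have r1 : h * σy - y * u = x := by
    rw [dsy, du]; linear_combination x * ht' + t' * α * hs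
  have r2 : x * u - h * σx = y ^ 2 := by
    rw [dsx, du]; linear_combination y ^ 2 * ht' + t' * β * hs
  have r3 : x * σy - y * σx = s := by
    rw [dsx, dsy]; linear_combination s * ht' - t' * hs
  have r4 : u + α * σx + β * σy = T := by
    rw [dsx, dsy, du]; linear_combination T * ht'
  have w1 : h * w = y + u ^ 2 := by
    rw [dw]
    linear_combination (y + u ^ 2) * ht' + t' * (α * y + β * u) * r1 - t' * (α * u - β) * r2
  have w3 : y * w = u * σy - σx := by
    rw [dw]
    linear_combination (u * σy - σx) * ht' - t' * (u + α * σx) * r1 - t' * (1 + α * σy) * r2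
  have e1 : fy h u w = y := by rw [fy, w1]; ring
  have e2 : fx h u v = x := by rw [fx, dv]; linear_combination r1 - u * w1
  have e3 : fsy u v w = σy := by rw [fsy, dv]; ring
  have e4 : fsx h u v w = σx := by rw [fsx, dv]; linear_combination -w * w1 - w3
  have e5 : fs h u v w = s := by rw [fs, e1, e2, e3, e4, r3]
  refine ⟨?_, ?_, ?_, ?_⟩
  · rw [fH, e1, e2, e5, hα, hβ, dh]; ring
  · rw [fX, e2, e5, hX]
  · rw [fY, e1, e5, hY]
  · rw [fT, e1, e3, e4, e5, hα, hβ, r4]

end

section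
variable {R : Type*} [CommRing R] {R' : Type*} [CommRing R'] {Φ : Type*} [FunLike Φ R R']
  [RingHomClass Φ R R'] (φ : Φ) (h u v w t t' X Y T : R)

theorem map_fx : φ (fx h u v) = fx (φ h) (φ u) (φ v) := by simp [fx]
theorem map_fy : φ (fy h u w) = fy (φ h) (φ u) (φ w) := by simp [fy]
theorem map_fsy : φ (fsy u v w) = fsy (φ u) (φ v) (φ w) := by simp [fsy]
theorem map_fsx : φ (fsx h u v w) = fsx (φ h) (φ u) (φ v) (φ w) := by simp [fsx, map_ofNat]
theorem map_fs : φ (fs h u v w) = fs (φ h) (φ u) (φ v) (φ w) := by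
  simp [fs, map_fx, map_fy, map_fsx, map_fsy]
theorem map_al : φ (al h) = al (φ h) := by simp [al, map_ofNat]
theorem map_be : φ (be h u) = be (φ h) (φ u) := by simp [be, map_ofNat]
theorem map_fH : φ (fH h u v w) = fH (φ h) (φ u) (φ v) (φ w) := by
  simp [fH, map_fx, map_fy, map_fs, map_al, map_be]
theorem map_fX : φ (fX h u v w) = fX (φ h) (φ u) (φ v) (φ w) := by simp [fX, map_fx, map_fs]
theorem map_fY : φ (fY h u v w) = fY (φ h) (φ u) (φ v) (φ w) := by simp [fY, map_fy, map_fs]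
theorem map_fT : φ (fT h u v w) = fT (φ h) (φ u) (φ v) (φ w) := by
  simp [fT, map_fsx, map_fsy, map_fy, map_fs, map_al, map_be]
theorem map_gs : φ (gs t' X Y) = gs (φ t') (φ X) (φ Y) := by simp [gs]
theorem map_gx : φ (gx t' X Y) = gx (φ t') (φ X) (φ Y) := by simp [gx, map_gs]
theorem map_gy : φ (gy t' X Y) = gy (φ t') (φ X) (φ Y) := by simp [gy, map_gs]
theorem map_gh : φ (gh t t' X Y) = gh (φ t) (φ t') (φ X) (φ Y) := by
  simp [gh, map_gs, map_gx, map_gy, map_al, map_be]
theorem map_gu : φ (gu t t' X Y T) = gu (φ t) (φ t') (φ X) (φ Y) (φ T) := by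
  simp [gu, map_gs, map_gx, map_gy, map_al, map_be, map_gh]
theorem map_gsy : φ (gsy t' X Y T) = gsy (φ t') (φ X) (φ Y) (φ T) := by
  simp [gsy, map_gs, map_gx, map_gy, map_al]
theorem map_gsx : φ (gsx t' X Y T) = gsx (φ t') (φ X) (φ Y) (φ T) := by
  simp [gsx, map_gs, map_gx, map_gy, map_be]
theorem map_gw : φ (gw t t' X Y T) = gw (φ t) (φ t') (φ X) (φ Y) (φ T) := by
  simp [gw, map_gs, map_gy, map_al, map_be, map_gu, map_gsx, map_gsy]
theorem map_gv : φ (gv t t' X Y T) = gv (φ t) (φ t') (φ X) (φ Y) (φ T) := by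
  simp [gv, map_gu, map_gw, map_gsy]

end

/-- At the critical point every derivation of `fH` vanishes. -/
theorem crit {A : Type*} [CommRing A] [Algebra ℂ A] (pt : A →+* ℂ) {h u v w : A} (h1 : pt h = 2)
    (h2 : pt u = 0) (h3 : pt v = -1 / 2) (h4 : pt w = 1 / 2) (E : Derivation ℂ A A) :
    pt (E (fH h u v w)) = 0 := by
  have e := congrArg (fun a => pt (E a)) (f_s h u v w)
  have s1 : pt (fs h u v w) = 1 := by
    rw [map_fs, h1, h2, h3, h4]; unfold fs fx fy fsx fsy; norm_num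
  have s2 : pt (fH h u v w) = 0 := by
    rw [map_fH, h1, h2, h3, h4]; unfold fH al be fs fx fy fsx fsy; norm_num
  have s3 : pt (fX h u v w) = 0 := by
    rw [map_fX, h1, h2, h3, h4]; unfold fX fs fx fy fsx fsy; norm_num
  have s4 : pt (fY h u v w) = 0 := by
    rw [map_fY, h1, h2, h3, h4]; unfold fY fs fx fy fsx fsy; norm_num
  simpa [Derivation.leibniz, Derivation.leibniz_pow, s1, s2, s3, s4] using e

theorem not_coord {σ : Type*} (i : σ) (g : MvPolynomial σ ℂ) (pt : MvPolynomial σ ℂ →+* ℂ)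
    (h : ∀ E : Derivation ℂ (MvPolynomial σ ℂ) (MvPolynomial σ ℂ), pt (E g) = 0) :
    ¬ ∃ τ : MvPolynomial σ ℂ ≃ₐ[ℂ] MvPolynomial σ ℂ, τ g = X i := by
  rintro ⟨e, he⟩
  let D : Derivation ℂ (MvPolynomial σ ℂ) (MvPolynomial σ ℂ) :=
    Derivation.liftOfSurjective (f := e.symm) e.symm.surjective (d := pderiv i) (by
      intro x hx
      have : x = 0 := by simpa using hx
      simp [this])
  have hD : ∀ b, D (e.symm b) = e.symm (pderiv i b) := fun b =>
    Derivation.liftOfSurjective_apply _ _ b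
  have := h D
  rw [← e.symm_apply_apply g, he, hD] at this
  simp at this

theorem quot_iso' {A T' : Type*} [CommRing A] [Algebra ℂ A]
    [CommRing T'] [Algebra ℂ T'] (a : A) (φ : A →ₐ[ℂ] T') (ψ : T' →ₐ[ℂ] A)
    (ha : φ a = 0) (h1 : φ.comp ψ = AlgHom.id ℂ T')
    (h2 : (Ideal.Quotient.mkₐ ℂ (Ideal.span {a})).comp (ψ.comp φ) =
      Ideal.Quotient.mkₐ ℂ (Ideal.span {a})) :
    Nonempty ((A ⧸ Ideal.span {a}) ≃ₐ[ℂ] T') := quot_iso AlgEquiv.refl a φ ψ ha h1 h2

theorem fibre_one : Nonempty ((MvPolynomial (Fin 4) ℂ ⧸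
    Ideal.span {(fH (X 0) (X 1) (X 2) (X 3) - 1 : MvPolynomial (Fin 4) ℂ)}) ≃ₐ[ℂ]
      MvPolynomial (Fin 3) ℂ) := by
  set m := Ideal.Quotient.mkₐ ℂ
    (Ideal.span {(fH (X 0) (X 1) (X 2) (X 3) - 1 : MvPolynomial (Fin 4) ℂ)}) with hm
  have hH : fH (m (X 0)) (m (X 1)) (m (X 2)) (m (X 3)) = 1 := by
    rw [← map_fH, ← sub_eq_zero, ← map_one m, ← map_sub]
    exact Ideal.Quotient.eq_zero_iff_mem.2 (Ideal.mem_span_singleton_self _)
  obtain ⟨a1, a2, a3, a4⟩ := gf (one_mul 1) hH
  obtain ⟨b1, b2, b3, b4⟩ := fg (one_mul (1 : MvPolynomial (Fin 3) ℂ)) (X 0) (X 1) (X 2)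
  let φ : MvPolynomial (Fin 4) ℂ →ₐ[ℂ] MvPolynomial (Fin 3) ℂ :=
    aeval ![gh 1 1 (X 0) (X 1), gu 1 1 (X 0) (X 1) (X 2), gv 1 1 (X 0) (X 1) (X 2),
      gw 1 1 (X 0) (X 1) (X 2)]
  let ψ : MvPolynomial (Fin 3) ℂ →ₐ[ℂ] MvPolynomial (Fin 4) ℂ :=
    aeval ![fX (X 0) (X 1) (X 2) (X 3), fY (X 0) (X 1) (X 2) (X 3), fT (X 0) (X 1) (X 2) (X 3)]
  refine quot_iso' _ φ ψ ?_ ?_ ?_
  · simp only [φ, map_sub, map_fH, aeval_X, Matrix.cons_val, b1, map_one, sub_self]
  · apply MvPolynomial.algHom_ext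
    intro i
    fin_cases i
    all_goals
      simp only [φ, ψ, AlgHom.comp_apply, aeval_X, AlgHom.id_apply, Fin.zero_eta,
        Fin.mk_one, Fin.reduceFinMk, Matrix.cons_val, map_fX, map_fY, map_fT, b2, b3, b4]
  · rw [← hm]
    apply MvPolynomial.algHom_ext
    intro i
    fin_cases i
    all_goals
      simp only [φ, ψ, AlgHom.comp_apply, aeval_X, Fin.zero_eta, map_one,
        Fin.mk_one, Fin.reduceFinMk, Matrix.cons_val, map_fX, map_fY, map_fT, map_gh, map_gu,
        map_gv, map_gw, a1, a2, a3, a4]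

end Crest.Agent.R268
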