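import Mathlib
import Crest.Agent.R268.Crit

/-! Commuting locally nilpotent derivations whose common kernel is generated by `fH`. -/

set_option autoImplicit false

namespace Crest.Agent.R268

open MvPolynomial Crest.Agent.R256

theorem pderiv_comm' {σ R : Type*} [CommRing R] (i j : σ) (f : MvPolynomial σ R) :
    pderiv i (pderiv j f) = pderiv j (pderiv i f) := by
  classical
  ext m
  simp only [coeff_pderiv, Finsupp.add_apply, Finsupp.single_apply]
  rw [add_right_comm m]
  by_cases h : i = j
  · subst h; rfl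
  · simp only [h, Ne.symm h, if_false, add_zero]
    ring

theorem eq_C_of_pderiv' {σ R : Type*} [CommRing R] [IsDomain R] [CharZero R]
    {f : MvPolynomial σ R} (h : ∀ i, pderiv i f = 0) : f = C (coeff 0 f) := by
  classical
  ext m
  rw [coeff_C]
  split_ifs with hm
  · rw [← hm]
  · obtain ⟨i, hi⟩ : ∃ i, m i ≠ 0 := by
      by_contra hc
      push Not at hc
      exact hm (Finsupp.ext fun i => (hc i).symm)
    have := congrArg (coeff (m - Finsupp.single i 1)) (h i)
    rw [coeff_pderiv, coeff_zero, tsub_add_cancel_of_le (by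
      rw [Finsupp.single_le_iff]; omega)] at this
    refine (mul_eq_zero.1 this).resolve_right ?_
    exact Nat.cast_add_one_ne_zero _

theorem pderiv_rename_eq_zero {σ τ R : Type*} [CommRing R] (f : σ → τ) {j : τ}
    (hj : ∀ i, f i ≠ j) (q : MvPolynomial σ R) : pderiv j (rename f q) = 0 := by
  induction q using MvPolynomial.induction_on with
  | C c => simp
  | add a b ha hb => simp [ha, hb]
  | mul_X a i ha => simp [ha, pderiv_X_of_ne (hj i)]

/-- The field of rational functions in one variable. -/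
abbrev KT : Type := FractionRing (Polynomial ℂ)

noncomputable def tt : KT := algebraMap (Polynomial ℂ) KT Polynomial.X

theorem tt_ne : tt ≠ 0 := fun h =>
  Polynomial.X_ne_zero (IsFractionRing.injective (Polynomial ℂ) KT (h.trans (map_zero _).symm))

variable (m : ℕ)

abbrev AM : Type := MvPolynomial (Fin (4 + m)) ℂ
abbrev LM : Type := MvPolynomial (Fin 3 ⊕ Fin m) KT
abbrev BM : Type := MvPolynomial (Fin 3 ⊕ Fin m) (Polynomial ℂ)

noncomputable def vh : AM m := X (Fin.castAdd m 0)
noncomputable def vu : AM m := X (Fin.castAdd m 1)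
noncomputable def vv : AM m := X (Fin.castAdd m 2)
noncomputable def vw : AM m := X (Fin.castAdd m 3)
noncomputable def vH : AM m := fH (vh m) (vu m) (vv m) (vw m)

/-- Images of the first four variables. -/
noncomputable def phi0 : Fin 4 → MvPolynomial (Fin 3) KT :=
  ![gh (C tt) (C tt⁻¹) (X 0) (X 1), gu (C tt) (C tt⁻¹) (X 0) (X 1) (X 2),
    gv (C tt) (C tt⁻¹) (X 0) (X 1) (X 2), gw (C tt) (C tt⁻¹) (X 0) (X 1) (X 2)]

noncomputable def phi : AM m →ₐ[ℂ] LM m :=
  aeval (Fin.addCases (fun k => rename Sum.inl (phi0 k)) (fun i => X (Sum.inr i)))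

noncomputable def psi : BM m →ₐ[ℂ] AM m :=
  aevalTower (Polynomial.aeval (vH m)) (Sum.elim
    ![fX (vh m) (vu m) (vv m) (vw m), fY (vh m) (vu m) (vv m) (vw m), fT (vh m) (vu m) (vv m) (vw m)]
    (fun i => X (Fin.natAdd 4 i)))

noncomputable def jj : BM m →+* LM m := MvPolynomial.map (algebraMap (Polynomial ℂ) KT)

theorem jj_inj : Function.Injective (jj m) :=
  MvPolynomial.map_injective _ (IsFractionRing.injective _ _)

theorem phi_f : phi m (vH m) = C tt ∧ phi m (fX (vh m) (vu m) (vv m) (vw m)) = X (Sum.inl 0) ∧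
    phi m (fY (vh m) (vu m) (vv m) (vw m)) = X (Sum.inl 1) ∧
    phi m (fT (vh m) (vu m) (vv m) (vw m)) = X (Sum.inl 2) := by
  have ht : (C tt : LM m) * C tt⁻¹ = 1 := by rw [← map_mul, mul_inv_cancel₀ tt_ne, map_one]
  have := fg ht (X (Sum.inl 0)) (X (Sum.inl 1)) (X (Sum.inl 2))
  simpa only [vH, vh, vu, vv, vw, phi, phi0, map_fH, map_fX, map_fY, map_fT, aeval_X,
    Fin.addCases_left, Matrix.cons_val, map_gh, map_gu, map_gv, map_gw, rename_C, rename_X]
    using this

theorem psi_C (q : Polynomial ℂ) : psi m (C q) = Polynomial.aeval (vH m) q := by simp [psi]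

theorem phi_psi (b : BM m) : phi m (psi m b) = jj m b := by
  obtain ⟨h0, h1, h2, h3⟩ := phi_f m
  induction b using MvPolynomial.induction_on with
  | C q =>
    rw [psi_C, ← Polynomial.aeval_algHom_apply, h0, jj, map_C]
    induction q using Polynomial.induction_on with
    | C c => simp only [Polynomial.aeval_C]; rfl
    | add p q hp hq => simp only [map_add, hp, hq]
    | monomial n c h =>
      rw [pow_succ, ← mul_assoc, map_mul, h, map_mul _ _ Polynomial.X, Polynomial.aeval_X,
        ← map_mul]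
      rfl
  | add a b ha hb => simp only [map_add, ha, hb]
  | mul_X a i ha =>
    simp only [map_mul, ha]
    congr 1
    rcases i with i | i
    · fin_cases i
      · simpa [psi, jj] using h1
      · simpa [psi, jj] using h2
      · simpa [psi, jj] using h3
    · simp [psi, jj, phi]

theorem exists_psi (a : AM m) : ∃ (N : ℕ) (b : BM m), vH m ^ N * a = psi m b := by
  let G : AM m → Prop := fun a => ∃ (N : ℕ) (b : BM m), vH m ^ N * a = psi m b
  have hH : psi m (C Polynomial.X) = vH m := by simp [psi_C]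
  have hadd : ∀ {a b}, G a → G b → G (a + b) := by
    rintro a a' ⟨N, b, h⟩ ⟨N', b', h'⟩
    refine ⟨N + N', C Polynomial.X ^ N' * b + C Polynomial.X ^ N * b', ?_⟩
    simp only [map_add, map_mul, map_pow, hH, ← h, ← h']
    ring
  have hmul : ∀ {a b}, G a → G b → G (a * b) := by
    rintro a a' ⟨N, b, h⟩ ⟨N', b', h'⟩
    refine ⟨N + N', b * b', ?_⟩
    simp only [map_mul, ← h, ← h']
    ring
  have hC : ∀ c : ℂ, G (C c) := fun c => ⟨0, C (Polynomial.C c), by simp [psi_C]⟩
  have hneg : ∀ {a}, G a → G (-a) := fun ha => by simpa using hmul (hC (-1)) ha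
  have hsub : ∀ {a b}, G a → G b → G (a - b) := fun ha hb => by
    rw [sub_eq_add_neg]; exact hadd ha (hneg hb)
  have hpow : ∀ {a} (n : ℕ), G a → G (a ^ n) := by
    intro a n ha
    induction n with
    | zero => simpa using hC 1
    | succ n ih => rw [pow_succ]; exact hmul ih ha
  have hdiv : ∀ {a}, G (vH m * a) → G a := by
    rintro a ⟨N, b, h⟩
    exact ⟨N + 1, b, by rw [← h]; ring⟩
  have h2 : G 2 := by simpa [map_ofNat] using hC 2
  have h3 : G 3 := by simpa [map_ofNat] using hC 3
  have gH : G (vH m) := ⟨0, C Polynomial.X, by simp [hH]⟩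
  have gX : G (fX (vh m) (vu m) (vv m) (vw m)) := ⟨0, X (Sum.inl 0), by simp [psi]⟩
  have gY : G (fY (vh m) (vu m) (vv m) (vw m)) := ⟨0, X (Sum.inl 1), by simp [psi]⟩
  have gT : G (fT (vh m) (vu m) (vv m) (vw m)) := ⟨0, X (Sum.inl 2), by simp [psi]⟩
  have gs : G (fs (vh m) (vu m) (vv m) (vw m)) :=
    hdiv (by rw [vH, f_s]; exact hadd (hpow 2 gX) (hpow 3 gY))
  have gx : G (fx (vh m) (vu m) (vv m)) := by
    simpa [fX] using hsub gX (hpow 3 gs)
  have gy : G (fy (vh m) (vu m) (vw m)) := by
    simpa [fY] using hadd gY (hpow 2 gs)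
  have ga : G (al (fs (vh m) (vu m) (vv m) (vw m))) := hmul h2 (hpow 2 gs)
  have gb : G (be (fs (vh m) (vu m) (vv m) (vw m)) (fy (vh m) (vu m) (vw m))) :=
    hsub (hmul h3 (hpow 3 gs)) (hmul (hmul h3 gs) gy)
  have gh : G (vh m) := by
    have := hsub (hsub gH (hmul gb gy)) (hmul ga gx)
    simpa [vH, fH] using this
  have gu : G (vu m) :=
    hdiv (by rw [vH, f_u]; exact hsub (hadd (hmul gh gT) (hmul ga (hpow 2 gy))) (hmul gb gx))
  have gsy : G (fsy (vu m) (vv m) (vw m)) :=
    hdiv (by rw [vH, f_sy]; exact hadd (hadd (hmul gy gT) gx) (hmul ga gs))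
  have gsx : G (fsx (vh m) (vu m) (vv m) (vw m)) :=
    hdiv (by rw [vH, f_sx]; exact hsub (hsub (hmul gx gT) (hpow 2 gy)) (hmul gb gs))
  have gw : G (vw m) :=
    hdiv (by
      rw [vH, f_w]
      exact hadd (hadd (hadd gy (hpow 2 gu)) (hmul ga (hadd (hmul gy gsy) (hmul gu gsx))))
        (hmul gb (hsub (hmul gu gsy) gsx)))
  have gv : G (vv m) := by simpa [fsy] using hsub gsy (hmul gu gw)
  change G a
  induction a using MvPolynomial.induction_on with
  | C c => exact hC c
  | add a b ha hb => exact hadd ha hb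
  | mul_X a i ha =>
    refine hmul ha ?_
    induction i using Fin.addCases with
    | left k =>
      fin_cases k
      exacts [gh, gu, gv, gw]
    | right i => exact ⟨0, X (Sum.inr i), by simp [psi]⟩

theorem phi_inj {a : AM m} (ha : phi m a = 0) : a = 0 := by
  obtain ⟨N, b, h⟩ := exists_psi m a
  have h1 := congrArg (phi m) h
  rw [map_mul, ha, mul_zero, phi_psi] at h1
  have hb : b = 0 := jj_inj m (by rw [← h1, map_zero])
  rw [hb, map_zero] at h
  refine (mul_eq_zero.1 h).resolve_left (pow_ne_zero _ ?_)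
  intro h0
  have := (phi_f m).1
  rw [h0, map_zero] at this
  exact tt_ne (C_injective _ _ (this.symm.trans (map_zero _).symm))

theorem phi_inj' {a b : AM m} (h : phi m a = phi m b) : a = b :=
  sub_eq_zero.1 (phi_inj m (by rw [map_sub, h, sub_self]))

theorem intertwine (D : Derivation ℂ (AM m) (AM m)) (c : KT) (i : Fin 3 ⊕ Fin m)
    (h : ∀ k, phi m (D (X k)) = C c * pderiv i (phi m (X k))) (a : AM m) :
    phi m (D a) = C c * pderiv i (phi m a) := by
  induction a using MvPolynomial.induction_on with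
  | C r =>
    have : phi m (C r) = C (algebraMap ℂ KT r) := by rw [algHom_C]; rfl
    rw [this, pderiv_C, derivation_C]; simp
  | add a b ha hb => simp only [map_add, ha, hb, mul_add]
  | mul_X a k ha =>
    simp only [Derivation.leibniz, smul_eq_mul, map_add, map_mul, ha, h]
    ring

theorem exists_D (i : Fin 3 ⊕ Fin m) : ∃ (D : Derivation ℂ (AM m) (AM m)) (c : KT), c ≠ 0 ∧
    (∀ a, phi m (D a) = C c * pderiv i (phi m a)) ∧
    ∀ j, i = Sum.inr j → D = pderiv (Fin.natAdd 4 j) := by
  rcases i with i | i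
  · choose N b hb using fun k => exists_psi m (X k)
    let M := Finset.univ.sup N
    have hM : ∀ k, N k ≤ M := fun k => Finset.le_sup (Finset.mem_univ k)
    refine ⟨mkDerivation ℂ fun k => vH m ^ (M - N k) * psi m (pderiv (Sum.inl i) (b k)), tt ^ M,
      pow_ne_zero _ tt_ne, intertwine m _ _ _ fun k => ?_, by simp⟩
    have h1 := congrArg (fun a => pderiv (Sum.inl i) (phi m a)) (hb k)
    simp only [map_mul, map_pow, (phi_f m).1, phi_psi] at h1
    rw [← map_pow, pderiv_C_mul, jj, pderiv_map] at h1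
    rw [mkDerivation_X, map_mul, map_pow, (phi_f m).1, phi_psi, jj, ← h1, ← map_pow, ← mul_assoc,
      ← map_mul, ← pow_add, Nat.sub_add_cancel (hM k)]
  · refine ⟨pderiv (Fin.natAdd 4 i), 1, one_ne_zero, intertwine m _ _ _ fun k => ?_, ?_⟩
    · induction k using Fin.addCases with
      | left k =>
        rw [pderiv_X_of_ne (by
          intro h
          have := congrArg Fin.val h
          simp only [Fin.val_castAdd, Fin.val_natAdd] at this
          omega)]
        simp only [phi, aeval_X, Fin.addCases_left, map_zero]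
        rw [pderiv_rename_eq_zero _ (by simp), mul_zero]
      | right k =>
        by_cases hk : k = i
        · subst hk; simp [phi]
        · rw [pderiv_X_of_ne (by simpa using hk)]
          simp only [phi, aeval_X, Fin.addCases_right, map_zero]
          rw [pderiv_X_of_ne (by simpa using hk), mul_zero]
    · rintro j ⟨rfl⟩; rfl

theorem mem_adjoin_of_pow (N : ℕ) : ∀ (q : Polynomial ℂ) (a : AM m),
    vH m ^ N * a = Polynomial.aeval (vH m) q → a ∈ Algebra.adjoin ℂ {vH m} := by
  have hne : vH m ≠ 0 := by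
    intro h0
    have := (phi_f m).1
    rw [h0, map_zero] at this
    exact tt_ne (C_injective _ _ (this.symm.trans (map_zero _).symm))
  induction N with
  | zero =>
    intro q a h
    rw [pow_zero, one_mul] at h
    rw [h]
    exact Polynomial.aeval_mem_adjoin_singleton ℂ _
  | succ N ih =>
    intro q a h
    let z : AM m →ₐ[ℂ] ℂ := aeval 0
    have hz : z (vH m) = 0 := by
      simp [z, vH, vh, vu, vv, vw, fH, fx, fy]
    have h1 := congrArg z h
    rw [map_mul, map_pow, hz, zero_pow (Nat.succ_ne_zero _), zero_mul,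
      ← Polynomial.aeval_algHom_apply, hz] at h1
    obtain ⟨q', rfl⟩ : Polynomial.X ∣ q := by
      rw [Polynomial.X_dvd_iff, Polynomial.coeff_zero_eq_eval_zero]
      simpa using h1.symm
    apply ih q'
    apply mul_left_cancel₀ hne
    rw [map_mul, Polynomial.aeval_X] at h
    rw [← h]; ring

theorem main_lnd : ∃ D : Fin 3 ⊕ Fin m → Derivation ℂ (AM m) (AM m),
    (∀ i : Fin m, D (Sum.inr i) = pderiv (Fin.natAdd 4 i)) ∧
    (∀ a b : Fin 3 ⊕ Fin m, ∀ p : AM m, D a (D b p) = D b (D a p)) ∧
    (∀ a : Fin 3 ⊕ Fin m, ∀ p : AM m, ∃ k : ℕ, (D a)^[k] p = 0) ∧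
    LinearIndependent (AM m) D ∧
    (∀ p : AM m, (∀ a : Fin 3 ⊕ Fin m, D a p = 0) ↔ p ∈ Algebra.adjoin ℂ {vH m}) ∧
    ∀ g : AM m, (∀ a : Fin 3 ⊕ Fin m, D a g = 0) →
      ¬ ∃ τ : AM m ≃ₐ[ℂ] AM m, τ g = X (Fin.castAdd m 0) := by
  classical
  choose D c hc hD hr using exists_D m
  have hC : ∀ i, (C (c i) : LM m) ≠ 0 := fun i h => hc i (C_injective _ _ (h.trans (map_zero _).symm))
  have hker : ∀ p : AM m, (∀ a : Fin 3 ⊕ Fin m, D a p = 0) ↔ p ∈ Algebra.adjoin ℂ {vH m} := by
    intro p
    constructor
    · intro h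
      obtain ⟨N, b, hb⟩ := exists_psi m p
      have h1 : ∀ a, pderiv a b = 0 := by
        intro a
        have h2 := hD a p
        rw [h a, map_zero] at h2
        have h3 := (mul_eq_zero.1 h2.symm).resolve_left (hC a)
        have h4 := congrArg (fun x => pderiv a (phi m x)) hb
        simp only [map_mul, map_pow, (phi_f m).1, phi_psi] at h4
        rw [← map_pow, pderiv_C_mul, jj, pderiv_map, h3, mul_zero] at h4
        exact jj_inj m (by rw [map_zero]; exact h4.symm)
      rw [eq_C_of_pderiv' h1, psi_C] at hb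
      exact mem_adjoin_of_pow m N _ _ hb
    · intro hp a
      induction hp using Algebra.adjoin_induction with
      | mem x hx =>
        rw [Set.mem_singleton_iff.1 hx]
        apply phi_inj
        rw [hD, (phi_f m).1, pderiv_C, mul_zero]
      | algebraMap r => simp
      | add x y _ _ hx hy => simp [hx, hy]
      | mul x y _ _ hx hy => simp [hx, hy]
  refine ⟨D, fun i => hr _ i rfl, fun a b p => ?_, fun a p => ?_, ?_, hker, fun g hg => ?_⟩
  · apply phi_inj'
    simp only [hD, pderiv_C_mul]
    rw [pderiv_comm']; ring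
  · obtain ⟨k, hk⟩ := pderiv_nilpotent a (phi m p)
    refine ⟨k, phi_inj m ?_⟩
    have : ∀ k, phi m ((D a)^[k] p) = C (c a ^ k) * (pderiv a)^[k] (phi m p) := by
      intro k
      induction k with
      | zero => simp
      | succ k ih =>
        rw [Function.iterate_succ_apply', hD, ih, pderiv_C_mul, Function.iterate_succ_apply',
          pow_succ, map_mul]
        ring
    rw [this, hk, mul_zero]
  · rw [Fintype.linearIndependent_iff]
    intro g hg i
    have h1 := congrArg (fun E : Derivation ℂ (AM m) (AM m) => phi m (E (psi m (X i)))) hg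
    have h2 : ∀ s : Finset (Fin 3 ⊕ Fin m), (∑ a ∈ s, g a • D a) (psi m (X i)) =
        ∑ a ∈ s, g a * D a (psi m (X i)) := by
      intro s
      induction s using Finset.induction_on with
      | empty => simp
      | insert a s ha ih => rw [Finset.sum_insert ha, Finset.sum_insert ha, ← ih]; rfl
    simp only [h2, map_sum, map_mul, hD, phi_psi, jj, map_X, Derivation.zero_apply, map_zero] at h1
    rw [Finset.sum_eq_single i (fun a _ ha => by rw [pderiv_X_of_ne (Ne.symm ha)]; simp)
      (by simp), pderiv_X_self, mul_one] at h1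
    exact phi_inj m ((mul_eq_zero.1 h1).resolve_right (hC i))
  · let pt : AM m →+* ℂ := eval (Fin.addCases ![2, 0, -1 / 2, 1 / 2] fun _ => 0)
    refine not_coord _ g pt fun E => ?_
    have hg' := (hker g).1 hg
    induction hg' using Algebra.adjoin_induction with
    | mem x hx =>
      rw [Set.mem_singleton_iff.1 hx]
      exact crit pt (by simp [pt, vh]) (by simp [pt, vu]) (by simp [pt, vv]) (by simp [pt, vw]) E
    | algebraMap r => simp
    | add x y hx' hy' hx hy => simp [hx ((hker x).2 hx'), hy ((hker y).2 hy')]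
    | mul x y hx' hy' hx hy => simp [hx ((hker x).2 hx'), hy ((hker y).2 hy')]

end Crest.Agent.R268
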